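import Vale.Agent.P039.H328.Faces
import Vale.Agent.P039.H331.Def
import Vale.Agent.P039.B893.Nf

/-! The numbers of faces of the two sides of a 3-edge-cut. -/

namespace Vale.Agent.P039.H328

open Vale.Agent.P039.Sk Vale.Agent.P039.H331 Vale.Agent.P039.B893

variable {B W : Type} {X : Web B W} {S : B → Prop} {T : W → Prop}

theorem nf_add [Finite B] (C : Cut3 X S T) : nf C.X1 + nf C.X2 = nf X + 3 := by
  have h := fun j => card_sides X S T C.bb C.X1 C.X2 C.hb C.hw C.only C.out
    (fun i a h => C.X1_some i a h)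
    (fun i a h => by simp only [Cut3.X1, Equiv.coe_fn_mk, h, dif_neg, not_false_eq_true])
    (fun i a => congrArg Subtype.val (C.X2_some i a)) (fun i => congrArg Subtype.val (C.X2_none i)) j
  have h0 := h 0
  have h1 := h 1
  have h2 := h 2
  unfold nf
  rw [Fin.sum_univ_three, Fin.sum_univ_three, Fin.sum_univ_three]
  omega

/-- Both sides of a 3-edge-cut of a spherical web are spherical, given Euler's inequality. -/
theorem nf_sides [Finite B] (C : Cut3 X S T) (hX : nf X = Nat.card B + 2)
    (h1 : nf C.X1 ≤ Nat.card {a // S a} + 2) (h2 : nf C.X2 ≤ Nat.card (Option {a // ¬ S a}) + 2) :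
    nf C.X1 = Nat.card {a // S a} + 2 ∧ nf C.X2 = Nat.card (Option {a // ¬ S a}) + 2 := by
  classical
  have h := nf_add C
  have hc : Nat.card (Option {a // ¬ S a}) = Nat.card {a // ¬ S a} + 1 := Finite.card_option
  have hb : Nat.card {a // S a} + Nat.card {a // ¬ S a} = Nat.card B := by
    rw [← Nat.card_sum, Nat.card_congr (Equiv.sumCompl S)]
  omega

end Vale.Agent.P039.H328
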