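import Vale.Agent.P039.Sk.Defs
import Mathlib.Tactic

/-! Counting the faces of the two sides of a 3-edge-cut (abstract part). -/

namespace Vale.Agent.P039.H328

open Vale.Agent.P039.Sk

theorem sameCycle_map {A B : Type*} {ρ₁ : Equiv.Perm A} {ρ : Equiv.Perm B} (f : A → B)
    (h : ∀ a, ρ.SameCycle (f a) (f (ρ₁ a))) {a a' : A} (hs : ρ₁.SameCycle a a') :
    ρ.SameCycle (f a) (f a') := by
  obtain ⟨n, rfl⟩ := hs
  induction n using Int.induction_on with
  | zero => simpa using Equiv.Perm.SameCycle.refl ρ (f a)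
  | succ n ih =>
    rw [add_comm, zpow_add, zpow_one, Equiv.Perm.mul_apply]
    exact ih.trans (h _)
  | pred n ih =>
    refine ih.trans ?_
    have h1 := h ((ρ₁ ^ (-(n : ℤ) - 1)) a)
    rw [← Equiv.Perm.mul_apply, ← zpow_one_add] at h1
    have h2 : (1 + (-(n : ℤ) - 1)) = -(n : ℤ) := by ring
    rw [h2] at h1
    exact h1.symm

theorem card_glue {Q₁ Q₂ Q : Type*} [Finite Q₁] [Finite Q₂] [Finite Q] (F₁ : Q₁ → Q) (F₂ : Q₂ → Q)
    (x₀ : Q₁) (y₀ : Q₂) (h₀ : F₁ x₀ = F₂ y₀) (i₁ : Function.Injective F₁)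
    (i₂ : Function.Injective F₂) (hs : ∀ q, (∃ x, F₁ x = q) ∨ ∃ y, F₂ y = q)
    (hx : ∀ x y, F₁ x = F₂ y → y = y₀) : Nat.card Q₁ + Nat.card Q₂ = Nat.card Q + 1 := by
  classical
  rw [← Nat.card_sum, ← Finite.card_option]
  refine Nat.card_congr (Equiv.ofBijective
    (Sum.elim (fun x => some (F₁ x)) (fun y => if y = y₀ then none else some (F₂ y))) ⟨?_, ?_⟩)
  · rintro (x | y) (x' | y') h
    · exact congrArg Sum.inl (i₁ (Option.some.inj h))
    · exfalso
      simp only [Sum.elim_inl, Sum.elim_inr] at h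
      split_ifs at h with h1
      exact h1 (hx _ _ (Option.some.inj h))
    · exfalso
      simp only [Sum.elim_inl, Sum.elim_inr] at h
      split_ifs at h with h1
      exact h1 (hx _ _ (Option.some.inj h).symm)
    · simp only [Sum.elim_inr] at h
      split_ifs at h with h1 h2 h2
      · rw [h1, h2]
      · exact congrArg Sum.inr (i₂ (Option.some.inj h))
  · intro q
    cases q with
    | none => exact ⟨Sum.inr y₀, by simp⟩
    | some q =>
      rcases hs q with ⟨x, rfl⟩ | ⟨y, rfl⟩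
      · exact ⟨Sum.inl x, rfl⟩
      · by_cases h1 : y = y₀
        · exact ⟨Sum.inl x₀, by simp [h₀, h1]⟩
        · exact ⟨Sum.inr y, by simp [h1]⟩

/-- Two permutations which arise from `ρ` by contraction of complementary parts. -/
theorem card_cycles {A₁ A₂ B : Type*} [Finite A₁] [Finite A₂] [Finite B] (ρ : Equiv.Perm B)
    (ρ₁ : Equiv.Perm A₁) (ρ₂ : Equiv.Perm A₂) (f₁ : A₁ → B) (f₂ : A₂ → B) (r₁ : B → A₁)
    (r₂ : B → A₂) (x₀ : A₁) (y₀ : A₂)
    (hf₁ : ∀ a, ρ.SameCycle (f₁ a) (f₁ (ρ₁ a))) (hf₂ : ∀ a, ρ.SameCycle (f₂ a) (f₂ (ρ₂ a)))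
    (hr₁ : ∀ b, ρ₁.SameCycle (r₁ b) (r₁ (ρ b))) (hr₂ : ∀ b, ρ₂.SameCycle (r₂ b) (r₂ (ρ b)))
    (h₁ : ∀ a, r₁ (f₁ a) = a) (h₂ : ∀ a, r₂ (f₂ a) = a)
    (h₀ : f₁ x₀ = f₂ y₀) (hs : ∀ b, (∃ a, f₁ a = b) ∨ ∃ a, f₂ a = b)
    (hx : ∀ a, r₂ (f₁ a) = y₀) :
    Nat.card (Quotient (Equiv.Perm.SameCycle.setoid ρ₁)) +
      Nat.card (Quotient (Equiv.Perm.SameCycle.setoid ρ₂)) =
      Nat.card (Quotient (Equiv.Perm.SameCycle.setoid ρ)) + 1 := by
  have e : ∀ {C : Type _} {σ : Equiv.Perm C} {a b : C},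
      (Quotient.mk (Equiv.Perm.SameCycle.setoid σ) a = Quotient.mk _ b) ↔ σ.SameCycle a b :=
    fun {C σ a b} => Quotient.eq
  have e' : ∀ {C : Type _} {σ : Equiv.Perm C} {a b : C},
      (Quotient.mk (Equiv.Perm.SameCycle.setoid σ) a = Quotient.mk _ b) ↔ σ.SameCycle a b :=
    fun {C σ a b} => Quotient.eq
  have e'' : ∀ {C : Type _} {σ : Equiv.Perm C} {a b : C},
      (Quotient.mk (Equiv.Perm.SameCycle.setoid σ) a = Quotient.mk _ b) ↔ σ.SameCycle a b :=
    fun {C σ a b} => Quotient.eq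
  refine card_glue
    (Quotient.lift (fun a => Quotient.mk _ (f₁ a)) fun a b h => e.2 (sameCycle_map f₁ hf₁ h))
    (Quotient.lift (fun a => Quotient.mk _ (f₂ a)) fun a b h => e.2 (sameCycle_map f₂ hf₂ h))
    (Quotient.mk _ x₀) (Quotient.mk _ y₀) ?_ ?_ ?_ ?_ ?_
  · simp only [Quotient.lift_mk, h₀]
  · intro a b
    refine Quotient.inductionOn₂ a b fun a b hab => ?_
    have h := sameCycle_map r₁ hr₁ (e.1 hab)
    rw [h₁, h₁] at h
    exact e'.2 h
  · intro a b
    refine Quotient.inductionOn₂ a b fun a b hab => ?_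
    have h := sameCycle_map r₂ hr₂ (e.1 hab)
    rw [h₂, h₂] at h
    exact e''.2 h
  · intro q
    refine Quotient.inductionOn q fun b => ?_
    rcases hs b with ⟨a, rfl⟩ | ⟨a, rfl⟩
    · exact Or.inl ⟨Quotient.mk _ a, rfl⟩
    · exact Or.inr ⟨Quotient.mk _ a, rfl⟩
  · intro a b
    refine Quotient.inductionOn₂ a b fun a b hab => ?_
    have h := sameCycle_map r₂ hr₂ (e.1 hab)
    rw [hx, h₂] at h
    exact e''.2 h.symm

section Web

variable {B W : Type}

theorem rho_iff (X : Web B W) (j : Fin 3) (b b' : B) :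
    X.rho j b = b' ↔ X.e (j + 1) b' = X.e (j + 2) b := by
  unfold Web.rho
  rw [Equiv.trans_apply, Equiv.symm_apply_eq, eq_comm]

theorem e_rho (X : Web B W) (j : Fin 3) (b : B) : X.e (j + 1) (X.rho j b) = X.e (j + 2) b :=
  (rho_iff X j b _).1 rfl

/-- the face of class `j` which crosses the cut -/
theorem cross [Finite B] (X : Web B W) (S : B → Prop) (T : W → Prop) (β : Fin 3 → B)
    (hb : ∀ i, S (β i)) (hw : ∀ i, ¬ T (X.e i (β i)))
    (only : ∀ i a, S a → ¬ T (X.e i a) → a = β i) (out : ∀ i a, ¬ S a → ¬ T (X.e i a))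
    (j : Fin 3) : (X.rho j).SameCycle (β (j + 2)) (β (j + 1)) := by
  classical
  have hex : ∃ n, 0 < n ∧ S (((X.rho j) ^ n) (β (j + 2))) := by
    obtain ⟨n, hn, h1⟩ := (isOfFinOrder_of_finite (X.rho j)).exists_pow_eq_one
    refine ⟨n, hn, ?_⟩
    rw [h1]
    exact hb _
  obtain ⟨h1, h2⟩ := Nat.find_spec hex
  obtain ⟨m, hm⟩ := Nat.exists_eq_succ_of_ne_zero h1.ne'
  have hmin : ∀ n, 0 < n → n < m + 1 → ¬ S (((X.rho j) ^ n) (β (j + 2))) := by
    intro n hn hlt hS
    exact Nat.find_min hex (hm ▸ hlt) ⟨hn, hS⟩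
  rw [hm, Nat.succ_eq_add_one, pow_succ', Equiv.Perm.mul_apply] at h2
  have h3 : ¬ T (X.e (j + 2) (((X.rho j) ^ m) (β (j + 2)))) := by
    rcases Nat.eq_zero_or_pos m with h0 | h0
    · rw [h0]
      exact hw _
    · exact out _ _ (hmin m h0 (Nat.lt_succ_self m))
  have h4 : X.rho j (((X.rho j) ^ m) (β (j + 2))) = β (j + 1) :=
    only _ _ h2 (by rw [e_rho]; exact h3)
  refine ⟨(m + 1 : ℕ), ?_⟩
  rw [zpow_natCast, pow_succ', Equiv.Perm.mul_apply, h4]

theorem card_sides [Finite B] (X : Web B W) (S : B → Prop) (T : W → Prop) (β : Fin 3 → B)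
    (X₁ : Web {a // S a} (Option {w // T w})) (X₂ : Web (Option {a // ¬ S a}) {w // ¬ T w})
    (hb : ∀ i, S (β i)) (hw : ∀ i, ¬ T (X.e i (β i)))
    (only : ∀ i a, S a → ¬ T (X.e i a) → a = β i) (out : ∀ i a, ¬ S a → ¬ T (X.e i a))
    (h₁s : ∀ i (a : {a // S a}) (h : T (X.e i (a : B))), X₁.e i a = some ⟨_, h⟩)
    (h₁n : ∀ i (a : {a // S a}), ¬ T (X.e i (a : B)) → X₁.e i a = none)
    (h₂s : ∀ i (a : {a // ¬ S a}), (X₂.e i (some a) : W) = X.e i a)
    (h₂n : ∀ i, (X₂.e i none : W) = X.e i (β i)) (j : Fin 3) :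
    Nat.card (Quotient (Equiv.Perm.SameCycle.setoid (X₁.rho j))) +
      Nat.card (Quotient (Equiv.Perm.SameCycle.setoid (X₂.rho j))) =
      Nat.card (Quotient (Equiv.Perm.SameCycle.setoid (X.rho j))) + 1 := by
  classical
  have hcross := cross X S T β hb hw only out j
  -- the permutation of the first side
  have k1 : ∀ a : {a // S a}, T (X.e (j + 2) (a : B)) → (X₁.rho j a : B) = X.rho j a := by
    intro a ha
    have h := e_rho X₁ j a
    rw [h₁s _ _ ha] at h
    by_cases h3 : T (X.e (j + 1) (X₁.rho j a : B))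
    · rw [h₁s _ _ h3] at h
      exact ((rho_iff X j _ _).2 (congrArg Subtype.val (Option.some.inj h))).symm
    · rw [h₁n _ _ h3] at h
      exact absurd h (by simp)
  have k2 : ∀ a : {a // S a}, ¬ T (X.e (j + 2) (a : B)) →
      (a : B) = β (j + 2) ∧ X₁.rho j a = ⟨β (j + 1), hb _⟩ := by
    intro a ha
    refine ⟨only _ _ a.2 ha, ?_⟩
    rw [rho_iff, h₁n _ _ ha, h₁n]
    exact hw _
  have m1 : ∀ b, S b → S (X.rho j b) → ∀ h h', X₁.rho j ⟨b, h⟩ = ⟨X.rho j b, h'⟩ := by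
    intro b hS hS' h h'
    by_cases ha : T (X.e (j + 2) b)
    · exact Subtype.ext (k1 ⟨b, h⟩ ha)
    · rw [(k2 ⟨b, h⟩ ha).2]
      exact Subtype.ext (only _ _ hS' (by rw [e_rho]; exact ha)).symm
  have m2 : ∀ b, S b → ¬ S (X.rho j b) → b = β (j + 2) := by
    intro b hS hS'
    refine only _ _ hS ?_
    rw [← e_rho]
    exact out _ _ hS'
  have m3 : ∀ b, ¬ S b → S (X.rho j b) → X.rho j b = β (j + 1) := by
    intro b hS hS'
    refine only _ _ hS' ?_
    rw [e_rho]
    exact out _ _ hS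
  -- the permutation of the second side
  have n1 : ∀ b (hS : ¬ S b) (hS' : ¬ S (X.rho j b)),
      X₂.rho j (some ⟨b, hS⟩) = some ⟨X.rho j b, hS'⟩ := by
    intro b hS hS'
    rw [rho_iff]
    refine Subtype.ext ?_
    rw [h₂s, h₂s]
    exact e_rho X j b
  have n2 : ∀ b (hS : ¬ S b), S (X.rho j b) → X₂.rho j (some ⟨b, hS⟩) = none := by
    intro b hS hS'
    rw [rho_iff]
    refine Subtype.ext ?_
    rw [h₂s, h₂n, ← m3 b hS hS']
    exact e_rho X j b
  have n3 : ∀ b, S b → ∀ (hS' : ¬ S (X.rho j b)), X₂.rho j none = some ⟨X.rho j b, hS'⟩ := by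
    intro b hS hS'
    rw [rho_iff]
    refine Subtype.ext ?_
    rw [h₂s, h₂n, ← m2 b hS hS']
    exact e_rho X j b
  refine card_cycles (X.rho j) (X₁.rho j) (X₂.rho j) Subtype.val
    (fun o => o.elim (β (j + 1)) Subtype.val)
    (fun b => if h : S b then ⟨b, h⟩ else ⟨β (j + 1), hb _⟩)
    (fun b => if h : S b then none else some ⟨b, h⟩) ⟨β (j + 1), hb _⟩ none
    ?_ ?_ ?_ ?_ ?_ ?_ ?_ ?_ ?_
  · intro a
    by_cases ha : T (X.e (j + 2) (a : B))
    · rw [k1 a ha]
      exact Equiv.Perm.sameCycle_apply_right.2 (Equiv.Perm.SameCycle.refl _ _)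
    · rw [(k2 a ha).1, (k2 a ha).2]
      exact hcross
  · intro a
    cases a with
    | none =>
      -- one step from the contracted vertex
      by_cases h : S (X.rho j (β (j + 2)))
      · have h1 : X₂.rho j none = none := by
          rw [rho_iff]
          refine Subtype.ext ?_
          rw [h₂n, h₂n, ← only _ _ h (by rw [e_rho]; exact hw _)]
          exact e_rho X j _
        rw [h1]
      · rw [n3 _ (hb _) h]
        exact hcross.symm.trans
          (Equiv.Perm.sameCycle_apply_right.2 (Equiv.Perm.SameCycle.refl _ _))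
    | some a =>
      obtain ⟨b, hS⟩ := a
      by_cases h : S (X.rho j b)
      · rw [n2 b hS h]
        change (X.rho j).SameCycle b (β (j + 1))
        rw [← m3 b hS h]
        exact Equiv.Perm.sameCycle_apply_right.2 (Equiv.Perm.SameCycle.refl _ _)
      · rw [n1 b hS h]
        exact Equiv.Perm.sameCycle_apply_right.2 (Equiv.Perm.SameCycle.refl _ _)
  · intro b
    by_cases hS : S b <;> by_cases hS' : S (X.rho j b)
    · simp only [hS, hS', dite_true]
      rw [← m1 b hS hS' hS hS']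
      exact Equiv.Perm.sameCycle_apply_right.2 (Equiv.Perm.SameCycle.refl _ _)
    · simp only [hS, hS', dite_true, dite_false]
      have h1 : ¬ T (X.e (j + 2) ((⟨b, hS⟩ : {a // S a}) : B)) := by
        change ¬ T (X.e (j + 2) b)
        rw [m2 b hS hS']
        exact hw _
      rw [← (k2 ⟨b, hS⟩ h1).2]
      exact Equiv.Perm.sameCycle_apply_right.2 (Equiv.Perm.SameCycle.refl _ _)
    · simp only [hS, hS', dite_true, dite_false]
      have h1 : (⟨X.rho j b, hS'⟩ : {a // S a}) = ⟨β (j + 1), hb _⟩ :=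
        Subtype.ext (m3 b hS hS')
      rw [h1]
    · simp only [hS, hS', dite_false]
      exact Equiv.Perm.SameCycle.refl _ _
  · intro b
    by_cases hS : S b <;> by_cases hS' : S (X.rho j b)
    · simp only [hS, hS', dite_true]
      exact Equiv.Perm.SameCycle.refl _ _
    · simp only [hS, hS', dite_true, dite_false]
      rw [← n3 b hS hS']
      exact Equiv.Perm.sameCycle_apply_right.2 (Equiv.Perm.SameCycle.refl _ _)
    · simp only [hS, hS', dite_true, dite_false]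
      rw [← n2 b hS hS']
      exact Equiv.Perm.sameCycle_apply_right.2 (Equiv.Perm.SameCycle.refl _ _)
    · simp only [hS, hS', dite_false]
      rw [← n1 b hS hS']
      exact Equiv.Perm.sameCycle_apply_right.2 (Equiv.Perm.SameCycle.refl _ _)
  · intro a
    simp [a.2]
  · intro a
    cases a with
    | none => simp [hb]
    | some a => simp [a.2]
  · rfl
  · intro b
    by_cases hS : S b
    · exact Or.inl ⟨⟨b, hS⟩, rfl⟩
    · exact Or.inr ⟨some ⟨b, hS⟩, rfl⟩
  · intro a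
    simp [a.2]

end Web

end Vale.Agent.P039.H328
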